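import Mathlib
import Vale.Agent.Lib.P137.helper41.Defs

/-!
# P137 pool job A (backup copy, helper72): two-point reflection

The integral of a radially nonincreasing function over a ball of fixed radius does not increase
when the centre moves away from the origin.
-/

namespace Vale.Agent.Lib.P137.H72

open Vale.Agent.Lib.P137 MeasureTheory Metric
open scoped ENNReal

variable {d : ℕ}

/-- The reflection in the hyperplane `{z | ⟪u, z⟫ = c}`. -/
noncomputable def sig (u : E d) (c : ℝ) (z : E d) : E d :=
  (ℝ ∙ u)ᗮ.reflection z + (2 * c / ‖u‖ ^ 2) • u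

theorem sig_apply (u : E d) (c : ℝ) (z : E d) :
    sig u c z = z - (2 * (inner ℝ u z - c) / ‖u‖ ^ 2) • u := by
  unfold sig
  rw [Submodule.reflection_orthogonal_apply, Submodule.reflection_singleton_apply]
  simp only [RCLike.ofReal_real_eq_id, id_eq, neg_sub]
  rw [two_nsmul]
  have e : (2 * (inner ℝ u z - c) / ‖u‖ ^ 2) • u
      = (inner ℝ u z / ‖u‖ ^ 2) • u + (inner ℝ u z / ‖u‖ ^ 2) • u - (2 * c / ‖u‖ ^ 2) • u := by
    rw [← add_smul, ← sub_smul]
    congr 1
    ring
  rw [e]
  abel

theorem dist_sig (u : E d) (c : ℝ) (z w : E d) : dist (sig u c z) (sig u c w) = dist z w := by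
  unfold sig
  rw [dist_add_right, LinearIsometryEquiv.dist_map]

theorem sig_measurePreserving (u : E d) (c : ℝ) :
    MeasurePreserving (sig u c) (volume : Measure (E d)) volume := by
  have h1 : MeasurePreserving ((ℝ ∙ u)ᗮ.reflection : E d → E d) volume volume :=
    LinearIsometryEquiv.measurePreserving _
  have h2 : MeasurePreserving (fun z : E d => z + (2 * c / ‖u‖ ^ 2) • u) volume volume :=
    measurePreserving_add_right volume _
  exact h2.comp h1

theorem sig_measurableEmbedding (u : E d) (c : ℝ) : MeasurableEmbedding (sig u c) := by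
  have h1 : MeasurableEmbedding ((ℝ ∙ u)ᗮ.reflection : E d → E d) :=
    ((ℝ ∙ u)ᗮ.reflection).toHomeomorph.measurableEmbedding
  have h2 : MeasurableEmbedding (fun z : E d => z + (2 * c / ‖u‖ ^ 2) • u) :=
    (MeasurableEquiv.addRight ((2 * c / ‖u‖ ^ 2) • u)).measurableEmbedding
  exact h2.comp h1

/-- J1 (reflection): the integral of a radially nonincreasing function over a ball of fixed
radius does not increase when the centre moves away from the origin. -/
theorem setLIntegral_ball_anti (F : ℝ → ℝ≥0∞) (hF : Antitone F) (x y : E d)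
    (hxy : ‖x‖ ≤ ‖y‖) (r : ℝ) :
    ∫⁻ z in ball y r, F ‖z‖ ≤ ∫⁻ z in ball x r, F ‖z‖ := by
  by_cases hne : x = y
  · rw [hne]
  set u : E d := y - x with hu
  set c : ℝ := (‖y‖ ^ 2 - ‖x‖ ^ 2) / 2 with hc
  have hu0 : u ≠ 0 := by
    intro h
    exact hne (sub_eq_zero.mp h).symm
  have hun : 0 < ‖u‖ ^ 2 := by positivity
  have hc0 : 0 ≤ c := by
    have : ‖x‖ ^ 2 ≤ ‖y‖ ^ 2 := by gcongr
    rw [hc]; linarith
  -- inner products
  have hux : inner ℝ u x = inner ℝ y x - ‖x‖ ^ 2 := by
    rw [hu, inner_sub_left, real_inner_self_eq_norm_sq]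
  have huy : inner ℝ u y = ‖y‖ ^ 2 - inner ℝ y x := by
    rw [hu, inner_sub_left, real_inner_self_eq_norm_sq, real_inner_comm]
  have huu : ‖u‖ ^ 2 = ‖y‖ ^ 2 - 2 * inner ℝ y x + ‖x‖ ^ 2 := by
    rw [hu, norm_sub_sq_real]
  -- the reflection swaps x and y
  have hsx : sig u c x = y := by
    rw [sig_apply]
    have : 2 * (inner ℝ u x - c) / ‖u‖ ^ 2 = -1 := by
      rw [div_eq_iff hun.ne']
      rw [hux, hc, huu]; ring
    rw [this, hu]; simp
  have hsy : sig u c y = x := by
    rw [sig_apply]
    have : 2 * (inner ℝ u y - c) / ‖u‖ ^ 2 = 1 := by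
      rw [div_eq_iff hun.ne']
      rw [huy, hc, huu]; ring
    rw [this, hu]; simp
  -- preimages of the balls
  have hpx : sig u c ⁻¹' ball x r = ball y r := by
    ext z
    simp only [Set.mem_preimage, mem_ball]
    rw [← hsy, dist_sig]
  have hpy : sig u c ⁻¹' ball y r = ball x r := by
    ext z
    simp only [Set.mem_preimage, mem_ball]
    rw [← hsx, dist_sig]
  -- the reflection decreases the norm on the far side
  have hnorm : ∀ z : E d, dist z y < dist z x → ‖sig u c z‖ ≤ ‖z‖ := by
    intro z hz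
    have h1 : dist z y ^ 2 < dist z x ^ 2 := by
      have := dist_nonneg (x := z) (y := y)
      gcongr
    rw [dist_eq_norm, dist_eq_norm, norm_sub_sq_real, norm_sub_sq_real] at h1
    have hzu : inner ℝ u z = inner ℝ z y - inner ℝ z x := by
      rw [hu, inner_sub_left, real_inner_comm, real_inner_comm x z]
    have hpos : 0 < inner ℝ u z - c := by
      rw [hzu, hc]; linarith
    have hsq : ‖sig u c z‖ ^ 2 ≤ ‖z‖ ^ 2 := by
      rw [sig_apply, norm_sub_sq_real, norm_smul, inner_smul_right, real_inner_comm u z]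
      rw [mul_pow, Real.norm_eq_abs, sq_abs]
      have e : (2 * (inner ℝ u z - c) / ‖u‖ ^ 2) ^ 2 * ‖u‖ ^ 2
          = 4 * (inner ℝ u z - c) ^ 2 / ‖u‖ ^ 2 := by
        field_simp
        ring
      rw [e]
      have e2 : ‖z‖ ^ 2 - 2 * (2 * (inner ℝ u z - c) / ‖u‖ ^ 2 * inner ℝ u z)
          + 4 * (inner ℝ u z - c) ^ 2 / ‖u‖ ^ 2
          = ‖z‖ ^ 2 - 4 * c * (inner ℝ u z - c) / ‖u‖ ^ 2 := by
        field_simp
        ring
      rw [e2]
      have : 0 ≤ 4 * c * (inner ℝ u z - c) / ‖u‖ ^ 2 := by positivity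
      linarith
    exact le_of_sq_le_sq hsq (norm_nonneg z) |> fun h => by simpa using h
  -- split the two integrals
  have hA := lintegral_inter_add_sdiff (μ := (volume : Measure (E d))) (fun z : E d => F ‖z‖)
    (ball y r) (measurableSet_ball (x := x) (ε := r))
  have hB := lintegral_inter_add_sdiff (μ := (volume : Measure (E d))) (fun z : E d => F ‖z‖)
    (ball x r) (measurableSet_ball (x := y) (ε := r))
  rw [← hA, ← hB, Set.inter_comm (ball x r) (ball y r)]
  gcongr 1
  -- the difference parts
  have hD : MeasurableSet (ball y r \ ball x r) := measurableSet_ball.diff measurableSet_ball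
  calc ∫⁻ z in ball y r \ ball x r, F ‖z‖
      ≤ ∫⁻ z in ball y r \ ball x r, F ‖sig u c z‖ := by
        refine setLIntegral_mono' hD ?_
        intro z hz
        apply hF
        apply hnorm
        have h1 : dist z y < r := mem_ball.mp hz.1
        have h2 : r ≤ dist z x := by
          have := hz.2
          rw [mem_ball, not_lt] at this
          exact this
        linarith
    _ = ∫⁻ z in sig u c ⁻¹' (ball x r \ ball y r), F ‖sig u c z‖ := by
        rw [Set.preimage_sdiff, hpx, hpy]
    _ = ∫⁻ w in ball x r \ ball y r, F ‖w‖ :=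
        (sig_measurePreserving u c).setLIntegral_comp_preimage_emb
          (sig_measurableEmbedding u c) (fun w => F ‖w‖) _

end Vale.Agent.Lib.P137.H72
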